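import Vale.Agent.P284.H608.K.Defs

/-!
# P284 (helper608), theorem K, the `L²` engine: statements of the modules

`r + 1` is the degree of the forms.
-/

open scoped ContDiff Topology ComplexConjugate ComplexOrder ENNReal
open Filter Set MeasureTheory

noncomputable section

namespace Vale.Agent.P284.H608.K

open Vale.Agent.P272.K

/-- `w` is smooth, positive definite and closed on `O` -/
structure KOn {n : ℕ} (O : Set (Cm n)) (w : Cm n → Matrix (Fin n) (Fin n) ℂ) : Prop where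
  sm : ∀ z ∈ O, ∀ j k, ContDiffAt ℝ ∞ (fun z => w z j k) z
  pos : ∀ z ∈ O, (w z).PosDef
  cl : ∀ z ∈ O, ∀ j k l, dz l (fun z => w z j k) z = dz j (fun z => w z l k) z

/-- **K1** -/
structure K1Stmt : Prop where
  conj_symm : ∀ (n p : ℕ) (w : Matrix (Fin n) (Fin n) ℂ), w.PosDef → ∀ A B : Af n p,
    hn w A B = conj (hn w B A)
  pos : ∀ (n p : ℕ) (w : Matrix (Fin n) (Fin n) ℂ), w.PosDef → ∀ A : Af n p, A ≠ 0 → 0 < hn w A A
  pull : ∀ (n p : ℕ) (w' : Matrix (Fin n) (Fin n) ℂ) (L : Cm n →L[ℂ] Cm n), w'.PosDef →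
    Function.Bijective L → ∀ A B : Af n p,
    hn ((LinearMap.toMatrix' (L : Cm n →ₗ[ℂ] Cm n)).transpose * w' *
      (LinearMap.toMatrix' (L : Cm n →ₗ[ℂ] Cm n)).map (starRingEnd ℂ))
      (A.compContinuousLinearMap L) (B.compContinuousLinearMap L) = hn w' A B
  F1 : ∀ (n p : ℕ) (hp : p ≤ n) (w : Matrix (Fin n) (Fin n) ℂ), w.PosDef → ∀ A B : Af n p,
    Qp hp w (fun s t => ev A s * conj (ev B t)) =
      (p.factorial : ℂ) ^ 2 * (n - p).factorial * w.det * hn w A B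
  /-- `Q_{p+1}` only depends on the alternating part -/
  F2 : ∀ (n p : ℕ) (hp : p + 1 ≤ n) (w : Matrix (Fin n) (Fin n) ℂ), w.PosDef →
    ∀ D E : Fin n → Af n p,
    Qp hp w (fun s t => ev (D (s 0)) (fun i => s i.succ) * conj (ev (E (t 0)) fun i => t i.succ)) =
      (p.factorial : ℂ) ^ 2 * (n - p - 1).factorial * w.det *
        hn w (ContinuousAlternatingMap.alternatizeUncurryFin
            (∑ a, (ContinuousLinearMap.proj (R := ℂ) (φ := fun _ : Fin n => ℂ) a).smulRight (D a)))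
          (ContinuousAlternatingMap.alternatizeUncurryFin
            (∑ a, (ContinuousLinearMap.proj (R := ℂ) (φ := fun _ : Fin n => ℂ) a).smulRight (E a)))
  F3 : ∀ (n p : ℕ) (hp : p + 2 ≤ n) (w : Matrix (Fin n) (Fin n) ℂ), w.PosDef →
    ∀ T T' : Fin n → Af n (p + 1),
    Qp hp w (fun s t => ev (T (t 0)) (fun i => s i.succ) * conj (ev (T' (s 0)) fun i => t i.succ)) =
      ((p + 1).factorial : ℂ) ^ 2 * (n - (p + 1) - 1).factorial * w.det *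
        ((∑ b, ∑ b', w⁻¹ b b' * hn w (T b) (T' b')) - hn w (Lam w T) (Lam w T'))
  F3z : ∀ (n : ℕ) (hp : 1 ≤ n) (w : Matrix (Fin n) (Fin n) ℂ), w.PosDef →
    ∀ T T' : Fin n → Af n 0,
    Qp hp w (fun s t => ev (T (t 0)) (fun i => s i.succ) * conj (ev (T' (s 0)) fun i => t i.succ)) =
      (n - 1).factorial * w.det * ∑ b, ∑ b', w⁻¹ b b' * hn w (T b) (T' b')
  /-- top degree: no `∂_h` term -/
  F3t : ∀ (r : ℕ) (w : Matrix (Fin (r + 1)) (Fin (r + 1)) ℂ), w.PosDef →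
    ∀ T T' : Fin (r + 1) → Af (r + 1) (r + 1),
    ∑ b, ∑ b', w⁻¹ b b' * hn w (T b) (T' b') = hn w (Lam w T) (Lam w T')
  F4 : ∀ (n p : ℕ) (hp : p + 1 ≤ n) (w : Matrix (Fin n) (Fin n) ℂ), w.PosDef →
    ∀ (τ : Af n p) (T : Fin n → Af n (p + 1)),
    Qp hp w (fun s t => ev τ (fun i => s i.succ) * conj (ev (T (s 0)) t)) =
      (p.factorial : ℂ) * (p + 1).factorial * (n - (p + 1)).factorial * w.det * hn w τ (Lam w T)
  /-- monotonicity of `A_β` -/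
  mono : ∀ (n p : ℕ) (w β β' : Matrix (Fin n) (Fin n) ℂ), w.PosDef → (β' - β).PosSemidef →
    ∀ η : Af n p, Ad w β η ≤ Ad w β' η
  Tn_nonneg : ∀ (n p : ℕ) (w : Matrix (Fin n) (Fin n) ℂ), w.PosDef → ∀ T : Fin n → Af n p,
    0 ≤ Tn w T

/-- **K1b**: further pointwise algebra, used in K45 and K8 -/
structure K1bStmt : Prop where
  /-- the adjoint of `dz_c ∧` -/
  wadj : ∀ (n p : ℕ) (w : Matrix (Fin n) (Fin n) ℂ), w.PosDef → ∀ (c : Fin n) (τ : Af n p)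
    (D : Af n (p + 1)),
    hn w (wdz c τ) D = hn w τ (∑ a, w⁻¹ c a • D.curryLeft (Pi.single a 1))
  /-- `|μ ∧ η|² + |ι_μ η|² = |μ|² |η|²` -/
  cliff : ∀ (n p : ℕ) (w : Matrix (Fin n) (Fin n) ℂ), w.PosDef → ∀ (μ : Fin n → ℂ)
    (η : Af n (p + 1)),
    hn w (∑ c, μ c • wdz c η) (∑ c, μ c • wdz c η) +
      hn w (∑ c, ∑ a, (conj (μ c) * w⁻¹ c a) • η.curryLeft (Pi.single a 1))
        (∑ c, ∑ a, (conj (μ c) * w⁻¹ c a) • η.curryLeft (Pi.single a 1)) =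
      (∑ c, ∑ d, μ c * conj (μ d) * w⁻¹ d c) * hn w η η
  /-- `A_w = n - p` in degree `p` -/
  Adw : ∀ (n p : ℕ) (_ : p ≤ n) (w : Matrix (Fin n) (Fin n) ℂ), w.PosDef → ∀ η : Af n p,
    Ad w w η = ((n - p : ℕ) : ℂ) * hn w η η
  /-- `|A|²_w dV_w` is increasing in `w` -/
  vmono : ∀ (n p : ℕ) (w h : Matrix (Fin n) (Fin n) ℂ), w.PosDef → (h - w).PosSemidef →
    ∀ A : Af n p, w.det * hn w A A ≤ h.det * hn h A A
  /-- `|dβ_1 ∧ … ∧ dβ_R|² dV_h ≤ det (h + Σ dβ_k ⊗ conj dβ_k)` -/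
  dec : ∀ (n R : ℕ) (h : Matrix (Fin n) (Fin n) ℂ), h.PosDef → ∀ (B : Cm n →L[ℂ] Cm R)
    (D : Af n R), (∀ ξ : Fin R → Cm n, D ξ = (Matrix.of fun i j => B (ξ j) i).det) →
    h.det * hn h D D ≤
      (h + Matrix.of fun j k => ∑ i, B (Pi.single j 1) i * conj (B (Pi.single k 1) i)).det

/-- **K2**, adjointness (`τ` or `η` with compact support in `O`) -/
def K2AdjStmt : Prop :=
  ∀ (n p : ℕ) (O : Set (Cm n)) (_ : IsOpen O) (w : Cm n → Matrix (Fin n) (Fin n) ℂ) (_ : KOn O w)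
    (φ : Cm n → ℝ) (_ : ∀ z ∈ O, ContDiffAt ℝ ∞ φ z) (τ : Cm n → Af n p)
    (η : Cm n → Af n (p + 1)), (∀ z ∈ O, ContDiffAt ℝ ∞ τ z) → (∀ z ∈ O, ContDiffAt ℝ ∞ η z) →
    (∃ C, IsCompact C ∧ C ⊆ O ∧ ((∀ z ∉ C, τ z = 0) ∨ ∀ z ∉ C, η z = 0)) →
    ∫ z in O, (Real.exp (-φ z) : ℂ) * hn (w z) (dhL φ τ z) (η z) * (w z).det =
      ∫ z in O, (Real.exp (-φ z) : ℂ) * hn (w z) (τ z) (SL w η z) * (w z).det

/-- **K2**, the Bochner-Kodaira identity, sesquilinear; the degree is `p + 1` -/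
def K2BKStmt : Prop :=
  ∀ (n p : ℕ) (O : Set (Cm n)) (_ : IsOpen O) (w : Cm n → Matrix (Fin n) (Fin n) ℂ) (_ : KOn O w)
    (φ : Cm n → ℝ) (_ : ∀ z ∈ O, ContDiffAt ℝ ∞ φ z) (η τ : Cm n → Af n (p + 1)),
    (∀ z ∈ O, ContDiffAt ℝ ∞ η z) → (∀ z ∈ O, ContDiffAt ℝ ∞ τ z) →
    (∃ C, IsCompact C ∧ C ⊆ O ∧ ∀ z ∉ C, τ z = 0) →
    ∫ z in O, (Real.exp (-φ z) : ℂ) * (w z).det *
      (hn (w z) (dhL φ η z) (dhL φ τ z) + hn (w z) (SL w η z) (SL w τ z) -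
        (∑ b, ∑ b', (w z)⁻¹ b b' * hn (w z) (dbV b η z) (dbV b' τ z)) -
        ∑ c, ∑ d, cHess φ z c d * hn (w z) (wdz c (η z)) (wdz d (τ z))) = 0

/-- **K2**, the Bochner-Kodaira identity for functions -/
def K2BK0Stmt : Prop :=
  ∀ (n : ℕ) (O : Set (Cm n)) (_ : IsOpen O) (w : Cm n → Matrix (Fin n) (Fin n) ℂ) (_ : KOn O w)
    (φ : Cm n → ℝ) (_ : ∀ z ∈ O, ContDiffAt ℝ ∞ φ z) (η τ : Cm n → Af n 0),
    (∀ z ∈ O, ContDiffAt ℝ ∞ η z) → (∀ z ∈ O, ContDiffAt ℝ ∞ τ z) →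
    (∃ C, IsCompact C ∧ C ⊆ O ∧ ∀ z ∉ C, τ z = 0) →
    ∫ z in O, (Real.exp (-φ z) : ℂ) * (w z).det *
      (hn (w z) (dhL φ η z) (dhL φ τ z) -
        (∑ b, ∑ b', (w z)⁻¹ b b' * hn (w z) (dbV b η z) (dbV b' τ z)) -
        ∑ c, ∑ d, cHess φ z c d * hn (w z) (wdz c (η z)) (wdz d (τ z))) = 0

namespace KA

variable {n p : ℕ} {M : Type} [TopologicalSpace M] [MeasurableSpace M] (K : KA n M)

/-- the `L²` product, linear in `η` -/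
def ip (η ζ : K.Fm p) : ℂ := ∫ x, K.dn η ζ x ∂K.μ

/-- the square of the `L²` norm -/
def nq (η : K.Fm p) : ℝ := (K.ip η η).re

/-- the square of the `L²` norm in `[0, ∞]` -/
def nl (η : K.Fm p) : ℝ≥0∞ := ∫⁻ x, ENNReal.ofReal (K.dn η η x).re ∂K.μ

/-- holomorphic forms -/
def Hol (η : K.Fm p) : Prop := ∀ i, ∀ z ∈ (K.e i).target, AnalyticAt ℂ (η i) z

end KA

/-- **K3**: the densities in any framed chart; integrability; adjointness; the global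
Bochner-Kodaira identity. -/
structure K3Stmt (n : ℕ) (M : Type) [TopologicalSpace M] [T2Space M] [MeasurableSpace M]
    [BorelSpace M] (K : KA n M) : Prop where
  dn_eq : ∀ (p : ℕ) (η ζ : K.Fm p), K.IsForm η → K.IsForm ζ → ∀ i x, x ∈ (K.e i).source →
    K.dn η ζ x = (Real.exp (-K.φ i (K.e i x)) : ℂ) *
      hn (K.w i (K.e i x)) (η i (K.e i x)) (ζ i (K.e i x))
  dT_eq : ∀ (p : ℕ) (η : K.Fm p), K.IsForm η → K.Smooth η → ∀ i x, x ∈ (K.e i).source →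
    K.dT η x = Real.exp (-K.φ i (K.e i x)) *
      (Tn (K.w i (K.e i x)) fun b => dbV b (η i) (K.e i x)).re
  dA_eq : ∀ (p : ℕ) (η : K.Fm p), K.IsForm η → ∀ i x, x ∈ (K.e i).source →
    K.dA η x = Real.exp (-K.φ i (K.e i x)) *
      (Ad (K.w i (K.e i x)) (cHess (K.φ i) (K.e i x)) (η i (K.e i x))).re
  dh_form : ∀ (p : ℕ) (η : K.Fm p), K.IsForm η → K.Smooth η →
    K.IsForm (K.dh η) ∧ K.Smooth (K.dh η)
  S_form : ∀ (p : ℕ) (η : K.Fm (p + 1)), K.IsForm η → K.Smooth η →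
    K.IsForm (K.S η) ∧ K.Smooth (K.S η)
  dh_test : ∀ (p : ℕ) (η : K.Fm p), K.Test η → K.Test (K.dh η)
  S_test : ∀ (p : ℕ) (η : K.Fm (p + 1)), K.Test η → K.Test (K.S η)
  dh_dh : ∀ (p : ℕ) (η : K.Fm p), K.Test η → K.dh (K.dh η) = 0
  int : ∀ (p : ℕ) (η ζ : K.Fm p), K.Test η → K.IsForm ζ → K.Smooth ζ →
    Integrable (K.dn η ζ) K.μ ∧ Integrable (K.dn ζ η) K.μ
  intT : ∀ (p : ℕ) (η : K.Fm p), K.Test η → Integrable (K.dT η) K.μ ∧ Integrable (K.dA η) K.μ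
  adj : ∀ (p : ℕ) (τ : K.Fm p) (η : K.Fm (p + 1)), K.IsForm τ → K.Smooth τ → K.IsForm η →
    K.Smooth η → (K.Test τ ∨ K.Test η) → K.ip (K.dh τ) η = K.ip τ (K.S η)
  bk : ∀ (p : ℕ) (η : K.Fm (p + 1)), K.Test η →
    K.nq (K.dh η) + K.nq (K.S η) = (∫ x, K.dT η x ∂K.μ) + ∫ x, K.dA η x ∂K.μ
  bk0 : ∀ η : K.Fm 0, K.Test η →
    K.nq (K.dh η) = (∫ x, K.dT η x ∂K.μ) + ∫ x, K.dA η x ∂K.μ

/-- **K45**: density of the test forms in the graph norm, degree `p + 1` -/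
def K45Stmt (n : ℕ) (M : Type) [TopologicalSpace M] [T2Space M] [MeasurableSpace M]
    [BorelSpace M] (K : KA n M) : Prop :=
  Nonempty K.Cut → ∀ (p : ℕ) (x : ℕ → K.Fm (p + 1)) (α : ℕ → K.Fm (p + 2)) (β : ℕ → K.Fm p),
    (∀ k, K.Test (x k)) → (∀ k, K.Test (α k)) → (∀ k, K.Test (β k)) →
    Tendsto (fun q : ℕ × ℕ => K.nq (x q.1 - x q.2)) atTop (𝓝 0) →
    Tendsto (fun q : ℕ × ℕ => K.nq (α q.1 - α q.2)) atTop (𝓝 0) →
    Tendsto (fun q : ℕ × ℕ => K.nq (β q.1 - β q.2)) atTop (𝓝 0) →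
    (∀ ψ : K.Fm (p + 2), K.Test ψ → Tendsto (fun k => K.ip (x k) (K.S ψ) - K.ip (α k) ψ) atTop
      (𝓝 0)) →
    (∀ ψ : K.Fm p, K.Test ψ → Tendsto (fun k => K.ip (x k) (K.dh ψ) - K.ip (β k) ψ) atTop
      (𝓝 0)) →
    ∃ y : ℕ → K.Fm (p + 1), (∀ k, K.Test (y k)) ∧ Tendsto (fun k => K.nq (y k - x k)) atTop (𝓝 0) ∧
      Tendsto (fun k => K.nq (K.dh (y k) - α k)) atTop (𝓝 0) ∧
      Tendsto (fun k => K.nq (K.S (y k) - β k)) atTop (𝓝 0)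

/-- **K45**, degree `0` -/
def K45zStmt (n : ℕ) (M : Type) [TopologicalSpace M] [T2Space M] [MeasurableSpace M]
    [BorelSpace M] (K : KA n M) : Prop :=
  Nonempty K.Cut → ∀ (x : ℕ → K.Fm 0) (α : ℕ → K.Fm 1),
    (∀ k, K.Test (x k)) → (∀ k, K.Test (α k)) →
    Tendsto (fun q : ℕ × ℕ => K.nq (x q.1 - x q.2)) atTop (𝓝 0) →
    Tendsto (fun q : ℕ × ℕ => K.nq (α q.1 - α q.2)) atTop (𝓝 0) →
    (∀ ψ : K.Fm 1, K.Test ψ → Tendsto (fun k => K.ip (x k) (K.S ψ) - K.ip (α k) ψ) atTop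
      (𝓝 0)) →
    ∃ y : ℕ → K.Fm 0, (∀ k, K.Test (y k)) ∧ Tendsto (fun k => K.nq (y k - x k)) atTop (𝓝 0) ∧
      Tendsto (fun k => K.nq (K.dh (y k) - α k)) atTop (𝓝 0)

/-- **K7**: limits of test forms -/
def K7Stmt (n : ℕ) (M : Type) [TopologicalSpace M] [T2Space M] [SigmaCompactSpace M]
    [MeasurableSpace M] [BorelSpace M] (K : KA n M) : Prop :=
  (∀ i, ∀ z ∈ (K.e i).target, (cHess (K.φ i) z).PosSemidef) → ∀ (p : ℕ) (x : ℕ → K.Fm p),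
    (∀ k, K.Test (x k)) →
    Tendsto (fun q : ℕ × ℕ => K.nq (x q.1 - x q.2)) atTop (𝓝 0) →
    Tendsto (fun k => ∫ y, K.dT (x k) y ∂K.μ) atTop (𝓝 0) →
    Tendsto (fun k => ∫ y, K.dA (x k) y ∂K.μ) atTop (𝓝 0) →
    ∃ s : K.Fm p, K.IsForm s ∧ K.Hol s ∧
      (∀ i, ∀ z ∈ (K.e i).target, Ad (K.w i z) (cHess (K.φ i) z) (s i z) = 0) ∧
      Tendsto (fun k => K.nl (s - x k)) atTop (𝓝 0)

/-- **ENGINE**: `s₀` is smooth with values in the line bundle, of degree `r + 1`, square integrable,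
`∂_h s₀ = 0`, and `S s₀` is controlled by the curvature. Then there is a holomorphic `s` near `s₀`, in the
kernel of the curvature. -/
def EngStmt : Prop :=
  ∀ (n : ℕ) (M : Type) [TopologicalSpace M] [T2Space M] [MeasurableSpace M] [BorelSpace M]
    (K : KA n M) (_ : K.Cut) (_ : ∀ i, ∀ z ∈ (K.e i).target, (cHess (K.φ i) z).PosSemidef)
    (r : ℕ) (s₀ : K.Fm (r + 1)), K.IsForm s₀ → K.Smooth s₀ → K.nl s₀ < ⊤ →
    K.dh s₀ = 0 → ∀ C₀ : ℝ, (∀ τ : K.Fm r, K.Test τ →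
      ‖K.ip τ (K.S s₀)‖ ^ 2 ≤ C₀ * ∫ x, K.dA τ x ∂K.μ) →
    ∃ s : K.Fm (r + 1), K.IsForm s ∧ K.Hol s ∧
      (∀ i, ∀ z ∈ (K.e i).target, Ad (K.w i z) (cHess (K.φ i) z) (s i z) = 0) ∧
      K.nl (s - s₀) ≤ ENNReal.ofReal C₀

/-- **MEAS**: the volume measure. -/
def MeasStmt : Prop :=
  ∀ (n : ℕ) (M : Type) [TopologicalSpace M] [T2Space M] [SigmaCompactSpace M] [MeasurableSpace M]
    [BorelSpace M] (I : Type) (e : I → OpenPartialHomeomorph M (Cm n)) (D : I → Cm n → ℝ)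
    (_ : ∀ x, ∃ i, x ∈ (e i).source)
    (_ : ∀ i j z, z ∈ (e i).target → (e i).symm z ∈ (e j).source →
      AnalyticAt ℂ (fun z => e j ((e i).symm z)) z)
    (_ : ∀ i, ContinuousOn (D i) (e i).target) (_ : ∀ i, ∀ z ∈ (e i).target, 0 < D i z)
    (_ : ∀ i j x, x ∈ (e i).source → x ∈ (e j).source →
      D i (e i x) = ‖(jacM (e i) (e j) x).det‖ ^ 2 * D j (e j x)),
    ∃ μ : Measure M, ∀ i (f : M → ℝ≥0∞), Measurable f → (∀ x, x ∉ (e i).source → f x = 0) →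
      ∫⁻ x, f x ∂μ = ∫⁻ z in (e i).target, f ((e i).symm z) * ENNReal.ofReal (D i z)

end Vale.Agent.P284.H608.K
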