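import Vale.Agent.P284.H837.SpS
import Vale.Agent.P284.H206.BogS

/-!
# P284 (helper608), theorem K: statements of the applications of the `L²` engine

`SpKStmt`, `BogKStmt`: as `SpStmt` (helper837), `BogStmt` (helper206), for compact Kähler manifolds.
`K8aStmt`: a sheet whose translates are disjoint. `K8bStmt`: a complete Kähler metric off the zero set of
`v` with finite mass.
-/

open scoped Manifold ContDiff Topology Pointwise ComplexConjugate ComplexOrder ENNReal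
open Filter Set Metric MeasureTheory

noncomputable section

namespace Vale.Agent.P284.H608.K

open Vale.Agent.P272.K Vale.Agent.P284.H248 Vale.Agent.P284.H894 Vale.Agent.P284.H894.G
  Vale.Agent.P284.H894.V Vale.Agent.P284.H894.W Vale.Agent.P284.H573
  Vale.Agent.P284.H395 Vale.Agent.P284.H213.Grp Vale.Agent.P284.H837 Vale.Agent.P284.H206

/-- **BOG** for compact Kähler manifolds -/
def BogKStmt : Prop :=
  ∀ (n R : ℕ) (X : Type) [TopologicalSpace X] [T2Space X] [CompactSpace X]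
    [ChartedSpace (Cm n) X] [IsManifold 𝓘(ℂ, Cm n) ω X]
    (w : Chart n X → Cm n → Matrix (Fin n) (Fin n) ℂ) (_ : IsKahler w)
    (L : LineBundle n X) (φ : Mor L R) (_ : Dense {x | DecAt φ x}), ¬ IitakaGE L (R + 1)

/-- **SP** for compact Kähler manifolds -/
def SpKStmt : Prop :=
  ∀ (n : ℕ) (X : Type) [TopologicalSpace X] [T2Space X] [CompactSpace X] [ConnectedSpace X]
    [ChartedSpace (Cm n) X] [IsManifold 𝓘(ℂ, Cm n) ω X]
    (w : Chart n X → Cm n → Matrix (Fin n) (Fin n) ℂ) (_ : IsKahler w)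
    (_ : Special n X)
    (E Γ : Type) [TopologicalSpace E] [ConnectedSpace E] [Group Γ] [MulAction Γ E]
    (p : E → X) (_ : IsGalois Γ p)
    (q : ℕ) (F : E → Cm q) (c : Γ → Cm q)
    (_ : ∀ (y : E) (e : Chart n X), At e (p y) → ∃ f : Cm n → Cm q,
      (∀ᶠ y' in 𝓝 y, F y' = f (e (p y'))) ∧ AnalyticAt ℂ f (e (p y)))
    (_ : ∀ g y, F (g • y) = F y + c g)
    (H : Type) [NormedAddCommGroup H] [InnerProductSpace ℂ H] [CompleteSpace H]
    (R m : ℕ) (_ : 1 ≤ R) (_ : 1 ≤ m) (v : E → Chart n X → (Fin R → Cm n) → H)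
    (_ : HForm n R m p H v) (_ : Eqv Γ p v)
    (_ : ∃ y₀ e b γ t, NFF m p v F y₀ e b γ t) (_ : LFin Γ m p v F),
    False

/-- **K8a**: a sheet over a ball whose translates are disjoint (up to roots of unity), and closed off the
zeros of `v`. -/
def K8aStmt : Prop :=
  ∀ (n : ℕ) (X : Type) [TopologicalSpace X] [T2Space X] [CompactSpace X] [ConnectedSpace X]
    [ChartedSpace (Cm n) X] [IsManifold 𝓘(ℂ, Cm n) ω X]
    (w : Chart n X → Cm n → Matrix (Fin n) (Fin n) ℂ) (_ : IsKahler w)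
    (E Γ : Type) [TopologicalSpace E] [ConnectedSpace E] [Group Γ] [MulAction Γ E]
    (p : E → X) (_ : IsGalois Γ p)
    (q : ℕ) (F : E → Cm q) (c : Γ → Cm q)
    (_ : ∀ (y : E) (e : Chart n X), At e (p y) → ∃ f : Cm n → Cm q,
      (∀ᶠ y' in 𝓝 y, F y' = f (e (p y'))) ∧ AnalyticAt ℂ f (e (p y)))
    (_ : ∀ g y, F (g • y) = F y + c g)
    (H : Type) [NormedAddCommGroup H] [InnerProductSpace ℂ H] [CompleteSpace H]
    (R m : ℕ) (_ : 1 ≤ R) (_ : 1 ≤ m) (v : E → Chart n X → (Fin R → Cm n) → H)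
    (_ : HForm n R m p H v) (_ : Eqv Γ p v)
    (_ : ∃ y₀ e b γ t, NFF m p v F y₀ e b γ t) (_ : LFin Γ m p v F),
    ∃ (y₀ : E) (e : Chart n X) (b : Cm n → Cm R) (γ : Cm R → H) (t : Cm R → Cm q) (r : ℝ) (N₁ : ℕ),
      NFF m p v F y₀ e b γ t ∧ 0 < r ∧ 1 ≤ N₁ ∧
      (∀ x ∈ ball (b (e (p y₀))) r, AnalyticAt ℂ γ x ∧ AnalyticAt ℂ t x ∧ ImmAt γ x) ∧
      (∀ x ∈ ball (b (e (p y₀))) r, ∀ x' ∈ ball (b (e (p y₀))) r, ∀ a : ℂ, γ x' = a • γ x →
        x' = x) ∧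
      (∀ (y : E) (g : Γ), ∀ x ∈ ball (b (e (p y₀))) r, ∀ x' ∈ ball (b (e (p y₀))) r,
        NZ p v y → Sh0 p v F γ t y x → Sh0 p v F γ t (g • y) x' → x' = x ∧
          ∃ θ : ℂ, θ ^ N₁ = 1 ∧ ∀ e', At e' (p y) → ∀ ξ, v (g • y) e' ξ = θ • v y e' ξ) ∧
      ∀ r' < r, ∀ y : E, NZ p v y →
        (∃ᶠ y' in 𝓝 y, ∃ g : Γ, ∃ x ∈ closedBall (b (e (p y₀))) r', Sh0 p v F γ t (g • y') x) →
        ∃ g : Γ, ∃ x ∈ closedBall (b (e (p y₀))) r', Sh0 p v F γ t (g • y) x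

section
variable {n : ℕ} {X : Type} [TopologicalSpace X] [ChartedSpace (Cm n) X]

/-- `h` is a Kähler metric off `Z` -/
structure KOff (Z : Set X) (h : Chart n X → Cm n → Matrix (Fin n) (Fin n) ℂ) : Prop where
  smooth : ∀ e x, At e x → x ∉ Z → ∀ i j, ContDiffAt ℝ ∞ (fun z => h e z i j) (e x)
  posDef : ∀ e x, At e x → x ∉ Z → (h e (e x)).PosDef
  change : ∀ e e' x, At e x → At e' x → x ∉ Z → h e (e x) =
    (jacM e e' x).transpose * h e' (e' x) * (jacM e e' x).map (starRingEnd ℂ)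
  closed : ∀ e x, At e x → x ∉ Z → ∀ i j k,
    dz k (fun z => h e z i j) (e x) = dz i (fun z => h e z k j) (e x)

/-- the Kähler metric `h` off `Z` is complete: cut-off functions -/
structure CutOff (Z : Set X) (h : Chart n X → Cm n → Matrix (Fin n) (Fin n) ℂ) where
  χ : ℕ → X → ℝ
  ε : ℕ → ℝ
  sm : ∀ ν (e : Chart n X) x, At e x → x ∉ Z → ContDiffAt ℝ ∞ (fun z => χ ν (e.symm z)) (e x)
  supp : ∀ ν, ∃ C, IsCompact C ∧ C ∩ Z = ∅ ∧ ∀ x ∉ C, χ ν x = 0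
  nonneg : ∀ ν x, 0 ≤ χ ν x
  mono : ∀ ν x, χ ν x ≤ χ (ν + 1) x
  le_one : ∀ ν x, χ ν x ≤ 1
  lim : ∀ x ∉ Z, ∀ᶠ ν in atTop, ∀ᶠ x' in 𝓝 x, χ ν x' = 1
  grad : ∀ ν (e : Chart n X) x, At e x → x ∉ Z → (((ε ν : ℝ) : ℂ) • h e (e x) -
    Matrix.of fun j k => dz j (fun z => (χ ν (e.symm z) : ℂ)) (e x) *
      conj (dz k (fun z => (χ ν (e.symm z) : ℂ)) (e x))).PosSemidef
  tend : Tendsto ε atTop (𝓝 0)

end

/-- **K8b**: the complete Kähler metric `w_c = (C + 1) w + i∂∂̄(-log(-u))` off `Z`; locally finite mass of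
`det (ρ + w_c)` near every point of `X`. -/
def K8bStmt : Prop :=
  ∀ (n : ℕ) (X : Type) [TopologicalSpace X] [T2Space X] [CompactSpace X]
    [ChartedSpace (Cm n) X] [IsManifold 𝓘(ℂ, Cm n) ω X]
    (w : Chart n X → Cm n → Matrix (Fin n) (Fin n) ℂ) (_ : IsKahler w)
    (Z : Set X) (_ : IsClosed Z) (s : ℕ) (ρ : Chart n X → Cm n → Matrix (Fin n) (Fin n) ℂ)
    (_ : IsRho Z s ρ) (C : ℝ) (u : X → ℝ) (_ : IsPot Z w ρ C u),
    ∃ h : Chart n X → Cm n → Matrix (Fin n) (Fin n) ℂ, KOff Z h ∧ Nonempty (CutOff Z h) ∧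
      (∀ e x, At e x → x ∉ Z → (h e (e x) - w e (e x)).PosSemidef) ∧
      ∀ (e : Chart n X) x, At e x → ∃ U ∈ 𝓝 (e x),
        ∫⁻ z in U ∩ e.symm ⁻¹' Zᶜ, ENNReal.ofReal ((ρ e z + h e z).det.re) < ⊤

end Vale.Agent.P284.H608.K
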