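import Vale.Agent.P284.H478.Fin
import Vale.Agent.P284.H837.VAF
import Vale.Agent.P284.H213.K.S

/-!
# P284 (helper608), theorem K: the fundamental group of a compact Kähler manifold of the class `D`
-/

open scoped Manifold ContDiff Topology
open Filter Set

noncomputable section

namespace Vale.Agent.P284.H608.K

open Vale.Agent.P272.K Vale.Agent.P284.H248 Vale.Agent.P284.H894 Vale.Agent.P284.H894.G
  Vale.Agent.P284.H894.F Vale.Agent.P284.H894.AE Vale.Agent.P284.H213.Q Vale.Agent.P284.H213.K

/-- the fundamental group, from its amenable quotients -/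
theorem pi_ofK {D : Cls} (hM : MainPiK D PQ) {n : ℕ} {X : Type} [TopologicalSpace X] [T2Space X]
    [CompactSpace X] [ConnectedSpace X] [ChartedSpace (Cm n) X] [IsManifold 𝓘(ℂ, Cm n) ω X]
    {w : Chart n X → Cm n → Matrix (Fin n) (Fin n) ℂ} (hw : IsKahler w) (hD : D n X) (x : X) :
    (∀ (Q : Type) [Group Q] (f : FundamentalGroup X x →* Q), Function.Surjective f → Folner Q →
      VirtAbelianRank Q (2 * n)) ∧
    (VirtuallyAbelian (FundamentalGroup X x) ↔ Folner (FundamentalGroup X x)) ∧
    ((SubexpGrowth (FundamentalGroup X x) ∨ AECurveConnected n x ∨ AECurveSpanned n x) →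
      VirtAbelianRank (FundamentalGroup X x) (2 * n)) := by
  have h1 : ∀ (Q : Type) [Group Q] (f : FundamentalGroup X x →* Q), Function.Surjective f →
      Folner Q → VirtAbelianRank Q (2 * n) := fun Q _ f hf => hM n X hD w hw x Q f hf
  have h2 : Folner (FundamentalGroup X x) → VirtAbelianRank (FundamentalGroup X x) (2 * n) :=
    h1 _ (MonoidHom.id _) Function.surjective_id
  refine ⟨h1, ⟨Vale.Agent.P284.H837.folner_of_virtuallyAbelian, fun h => ?_⟩, fun h => ?_⟩
  · obtain ⟨A, h3, h4, -⟩ := h2 h
    exact ⟨A, h3, h4⟩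
  · rcases h with h | h
    · exact h2 h.folner
    · exact h2 (growth_or tanConcl hw x h).folner

end Vale.Agent.P284.H608.K
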