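import Vale.Agent.P272.K.Stmt
import Mathlib.Analysis.Normed.Module.Alternating.Curry
import Mathlib.Analysis.Normed.Module.Alternating.Uncurry.Fin
import Mathlib.MeasureTheory.Integral.Bochner.Basic

/-!
# P284 (helper608), theorem K (compact Kähler manifolds), the `L²` engine: definitions

`(p,0)`-forms with values in a line bundle on a Kähler manifold `M` which is given by framed charts.
A form is a family `η i z : Cm n [⋀^Fin p]→L[ℂ] ℂ` (`i` a framed chart, `z` in its target), zero outside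
of the target. `hn w A B` is the Hermitian product of the alternating forms `A`, `B` for the metric with
coefficient matrix `w` (`w i j = w(e_i, e_j)`, linear in the first variable).
-/

open scoped ContDiff Topology ComplexConjugate ComplexOrder ENNReal
open Filter Set MeasureTheory

noncomputable section

namespace Vale.Agent.P284.H608.K

open Vale.Agent.P272.K

/-- alternating `p`-forms on `ℂⁿ` -/
abbrev Af (n p : ℕ) : Type := Cm n [⋀^Fin p]→L[ℂ] ℂ

section algebra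

variable {n p : ℕ}

/-- the value on basis vectors -/
def ev (A : Af n p) (s : Fin p → Fin n) : ℂ := A fun i => Pi.single (s i) 1

/-- the Hermitian product of alternating forms: `(1/p!) Σ_{s,t} A(e_s) conj B(e_t) Π w⁻¹ (t i) (s i)` -/
def hn (w : Matrix (Fin n) (Fin n) ℂ) (A B : Af n p) : ℂ :=
  ((p.factorial : ℂ))⁻¹ * ∑ s : Fin p → Fin n, ∑ t : Fin p → Fin n,
    ev A s * conj (ev B t) * ∏ i, w⁻¹ (t i) (s i)

/-- the form `dz_c ∧ η` -/
def wdz (c : Fin n) (η : Af n p) : Af n (p + 1) :=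
  ContinuousAlternatingMap.alternatizeUncurryFin
    ((ContinuousLinearMap.proj (R := ℂ) (φ := fun _ : Fin n => ℂ) c).smulRight η)

/-- `A_β(η) = Σ β_{cd} ⟨dz_c ∧ η, dz_d ∧ η⟩` -/
def Ad (w β : Matrix (Fin n) (Fin n) ℂ) (η : Af n p) : ℂ :=
  ∑ c, ∑ d, β c d * hn w (wdz c η) (wdz d η)

/-- the square of the norm of `T = (∂̄_b η)_b` -/
def Tn (w : Matrix (Fin n) (Fin n) ℂ) (T : Fin n → Af n p) : ℂ :=
  ∑ b, ∑ b', w⁻¹ b b' * hn w (T b) (T b')

/-- the contraction `ΛT` -/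
def Lam (w : Matrix (Fin n) (Fin n) ℂ) (T : Fin n → Af n (p + 1)) : Af n p :=
  ∑ a, ∑ b, w⁻¹ b a • (T b).curryLeft (Pi.single a 1)

/-- `Σ_{σ,τ} sgn σ sgn τ 𝒦(σ|p, τ|p) Π_{k ≥ p} w (σ k) (τ k)` -/
def Qp (hp : p ≤ n) (w : Matrix (Fin n) (Fin n) ℂ)
    (K : (Fin p → Fin n) → (Fin p → Fin n) → ℂ) : ℂ :=
  ∑ σ : Equiv.Perm (Fin n), ∑ τ : Equiv.Perm (Fin n),
    ((Equiv.Perm.sign σ : ℤ) : ℂ) * ((Equiv.Perm.sign τ : ℤ) : ℂ) *
      K (fun i => σ (Fin.castLE hp i)) (fun i => τ (Fin.castLE hp i)) *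
      ∏ k ∈ Finset.univ.filter (fun k : Fin n => p ≤ (k : ℕ)), w (σ k) (τ k)

end algebra

section calculus

variable {n p : ℕ} {V : Type} [NormedAddCommGroup V] [NormedSpace ℂ V]

/-- `∂η/∂z_a` for a vector valued function -/
def dzV (a : Fin n) (η : Cm n → V) (z : Cm n) : V :=
  (2 : ℂ)⁻¹ • (fderiv ℝ η z (Pi.single a 1) - Complex.I • fderiv ℝ η z (Pi.single a Complex.I))

/-- `∂η/∂z̄_b` for a vector valued function -/
def dbV (b : Fin n) (η : Cm n → V) (z : Cm n) : V :=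
  (2 : ℂ)⁻¹ • (fderiv ℝ η z (Pi.single b 1) + Complex.I • fderiv ℝ η z (Pi.single b Complex.I))

/-- the Chern derivative `∂_h η = e^φ ∂(e^{-φ} η)` in a frame -/
def dhL (φ : Cm n → ℝ) (η : Cm n → Af n p) (z : Cm n) : Af n (p + 1) :=
  ContinuousAlternatingMap.alternatizeUncurryFin
    (∑ a, (ContinuousLinearMap.proj (R := ℂ) (φ := fun _ : Fin n => ℂ) a).smulRight
      (dzV a η z - dz a (fun y => (φ y : ℂ)) z • η z))

/-- the adjoint `S η = - Σ g^{ab̄} ι_a ∂̄_b η` -/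
def SL (w : Cm n → Matrix (Fin n) (Fin n) ℂ) (η : Cm n → Af n (p + 1)) (z : Cm n) : Af n p :=
  - Lam (w z) fun b => dbV b η z

end calculus

/-- A complex manifold with a Kähler metric, a line bundle with a metric, and the volume measure of the
Kähler metric, given by framed charts: the chart `e i`, the coefficient matrix `w i`, the weight `φ i`
(the generator has norm `e^{-φ/2}`), the transition functions `a i j` (a section `s` has the components
`s i = a i j • s j`). -/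
structure KA (n : ℕ) (M : Type) [TopologicalSpace M] [MeasurableSpace M] where
  I : Type
  e : I → OpenPartialHomeomorph M (Cm n)
  w : I → Cm n → Matrix (Fin n) (Fin n) ℂ
  φ : I → Cm n → ℝ
  a : I → I → Cm n → ℂ
  μ : Measure M
  cover : ∀ x, ∃ i, x ∈ (e i).source
  wsm : ∀ i, ∀ z ∈ (e i).target, ∀ j k, ContDiffAt ℝ ∞ (fun z => w i z j k) z
  wpos : ∀ i, ∀ z ∈ (e i).target, (w i z).PosDef
  wcl : ∀ i, ∀ z ∈ (e i).target, ∀ j k l,
    dz l (fun z => w i z j k) z = dz j (fun z => w i z l k) z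
  φsm : ∀ i, ∀ z ∈ (e i).target, ContDiffAt ℝ ∞ (φ i) z
  hol : ∀ i j z, z ∈ (e i).target → (e i).symm z ∈ (e j).source →
    AnalyticAt ℂ (fun z => e j ((e i).symm z)) z
  wch : ∀ i j x, x ∈ (e i).source → x ∈ (e j).source →
    w i (e i x) = (jacM (e i) (e j) x).transpose * w j (e j x) *
      (jacM (e i) (e j) x).map (starRingEnd ℂ)
  ahol : ∀ i j z, z ∈ (e i).target → (e i).symm z ∈ (e j).source → AnalyticAt ℂ (a i j) z
  coc : ∀ i j k x, x ∈ (e i).source → x ∈ (e j).source → x ∈ (e k).source →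
    a i k (e i x) = a i j (e i x) * a j k (e j x)
  aself : ∀ i x, x ∈ (e i).source → a i i (e i x) = 1
  φch : ∀ i j x, x ∈ (e i).source → x ∈ (e j).source →
    Real.exp (-φ i (e i x)) * ‖a i j (e i x)‖ ^ 2 = Real.exp (-φ j (e j x))
  hμ : ∀ i (f : M → ℝ≥0∞), Measurable f → (∀ x, x ∉ (e i).source → f x = 0) →
    ∫⁻ x, f x ∂μ = ∫⁻ z in (e i).target, f ((e i).symm z) * ENNReal.ofReal ((w i z).det.re)

namespace KA

variable {n p : ℕ} {M : Type} [TopologicalSpace M] [MeasurableSpace M] (K : KA n M)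

/-- families of local forms -/
abbrev Fm (p : ℕ) : Type := K.I → Cm n → Af n p

/-- `η` is a form with values in the line bundle: it changes as it should, and is `0` outside of the
targets of the charts -/
structure IsForm (η : K.Fm p) : Prop where
  change : ∀ i j x, x ∈ (K.e i).source → x ∈ (K.e j).source →
    η i (K.e i x) = K.a i j (K.e i x) • (η j (K.e j x)).compContinuousLinearMap
      (fderiv ℂ (fun z => K.e j ((K.e i).symm z)) (K.e i x))
  off : ∀ i, ∀ z, z ∉ (K.e i).target → η i z = 0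

/-- `η` is smooth -/
def Smooth (η : K.Fm p) : Prop := ∀ i, ∀ z ∈ (K.e i).target, ContDiffAt ℝ ∞ (η i) z

/-- `η` vanishes outside of `C` -/
def Off (C : Set M) (η : K.Fm p) : Prop := ∀ i, ∀ x ∈ (K.e i).source, x ∉ C → η i (K.e i x) = 0

/-- test forms -/
structure Test (η : K.Fm p) : Prop where
  form : K.IsForm η
  smooth : K.Smooth η
  supp : ∃ C, IsCompact C ∧ K.Off C η

/-- a framed chart at `x` -/
def ix (x : M) : K.I := (K.cover x).choose

/-- the pointwise Hermitian product `⟨η, ζ⟩` (linear in `η`) -/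
def dn (η ζ : K.Fm p) (x : M) : ℂ :=
  (Real.exp (-K.φ (K.ix x) (K.e (K.ix x) x)) : ℂ) *
    hn (K.w (K.ix x) (K.e (K.ix x) x)) (η (K.ix x) (K.e (K.ix x) x))
      (ζ (K.ix x) (K.e (K.ix x) x))

/-- the pointwise density of `‖∂̄η‖²` -/
def dT (η : K.Fm p) (x : M) : ℝ :=
  Real.exp (-K.φ (K.ix x) (K.e (K.ix x) x)) *
    (Tn (K.w (K.ix x) (K.e (K.ix x) x)) fun b => dbV b (η (K.ix x)) (K.e (K.ix x) x)).re

/-- the pointwise density of the curvature term -/
def dA (η : K.Fm p) (x : M) : ℝ :=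
  Real.exp (-K.φ (K.ix x) (K.e (K.ix x) x)) *
    (Ad (K.w (K.ix x) (K.e (K.ix x) x)) (cHess (K.φ (K.ix x)) (K.e (K.ix x) x))
      (η (K.ix x) (K.e (K.ix x) x))).re

open Classical in
/-- `∂_h η` -/
def dh (η : K.Fm p) : K.Fm (p + 1) := fun i z =>
  if z ∈ (K.e i).target then dhL (K.φ i) (η i) z else 0

open Classical in
/-- `S η` -/
def S (η : K.Fm (p + 1)) : K.Fm p := fun i z =>
  if z ∈ (K.e i).target then SL (K.w i) (η i) z else 0

/-- smooth cut-off functions, which show that the metric is complete -/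
structure Cut where
  χ : ℕ → M → ℝ
  ε : ℕ → ℝ
  sm : ∀ ν i, ∀ z ∈ (K.e i).target, ContDiffAt ℝ ∞ (fun z => χ ν ((K.e i).symm z)) z
  supp : ∀ ν, ∃ C, IsCompact C ∧ ∀ x ∉ C, χ ν x = 0
  nonneg : ∀ ν x, 0 ≤ χ ν x
  mono : ∀ ν x, χ ν x ≤ χ (ν + 1) x
  le_one : ∀ ν x, χ ν x ≤ 1
  lim : ∀ x, ∀ᶠ ν in atTop, ∀ᶠ x' in 𝓝 x, χ ν x' = 1
  /-- `i∂χ ∧ ∂̄χ ≤ ε w` -/
  grad : ∀ ν i, ∀ z ∈ (K.e i).target, (((ε ν : ℝ) : ℂ) • K.w i z -
    Matrix.of fun j k => dz j (fun z => (χ ν ((K.e i).symm z) : ℂ)) z *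
      conj (dz k (fun z => (χ ν ((K.e i).symm z) : ℂ)) z)).PosSemidef
  tend : Tendsto ε atTop (𝓝 0)

end KA

end Vale.Agent.P284.H608.K
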