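import Vale.Agent.P284.H286.K.Eng
import Vale.Agent.P284.H752.K1
import Vale.Agent.P284.H205.K.Main
import Vale.Agent.P284.H279.K.K2
import Vale.Agent.P284.H366.K.K7
import Vale.Agent.P284.H419.K.Den

/-!
# P284 (helper608), theorem K: the `L²` engine, unconditional
-/

open Set MeasureTheory

noncomputable section

namespace Vale.Agent.P284.H608.K

open Vale.Agent.P284.H752

/-- **K3** -/
theorem k3 (n : ℕ) (M : Type) [TopologicalSpace M] [T2Space M] [MeasurableSpace M] [BorelSpace M]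
    (K : KA n M) : K3Stmt n M K :=
  Vale.Agent.P284.H205.K.k3_of k1Stmt (Vale.Agent.P284.H279.K.k2Adj_of k1Stmt)
    (Vale.Agent.P284.H279.K.k2BK_of k1Stmt) (Vale.Agent.P284.H279.K.k2BK0_of k1Stmt) n M K

/-- **the `L²` engine** -/
theorem eng : EngStmt :=
  Vale.Agent.P284.H286.K.eng_of k1Stmt k3
    (fun n M _ _ _ _ K => Vale.Agent.P284.H419.K.k45_of k1Stmt (k3 n M K))
    (fun n M _ _ _ _ K => Vale.Agent.P284.H419.K.k45z_of k1Stmt (k3 n M K))
    (fun n M _ _ _ _ _ K => Vale.Agent.P284.H366.K.k7_of k1Stmt (k3 n M K))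

end Vale.Agent.P284.H608.K
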