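import Vale.Agent.P284.H608.K.Eng
import Vale.Agent.P284.H383.K9.Ex
import Vale.Agent.P284.H661.K.Vol
import Vale.Agent.P284.H501.K.T5
import Vale.Agent.P284.H553.K8.EngF
import Vale.Agent.P284.H213.K.Fin
import Vale.Agent.P284.H402.T.LimAtT

/-!
# P284 (helper608), theorem K: special compact Kähler manifolds, unconditional

`exK` (383), `t5K` (501), `spK` (553), and the theorems of helper213's assembly.
-/

open scoped Manifold ContDiff Topology

noncomputable section

namespace Vale.Agent.P284.H608.K

open Vale.Agent.P272.K Vale.Agent.P284.H213.K Vale.Agent.P284.H174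

/-- **ExK** -/
theorem exK : ExK := Vale.Agent.P284.H383.K9.exK_of eng k3 Vale.Agent.P284.H661.K.volStmt

/-- **T1'** for compact Kähler manifolds all of whose finite étale coverings are special: the amenable
quotients of `π₁` are virtually abelian of rank at most `2 n`. -/
theorem t1K : MainPiK fspC PQ :=
  mainQK Vale.Agent.P284.H553.K8.spK exK Vale.Agent.P284.H501.K.t5K

/-- **T2** for compact Kähler manifolds -/
theorem t2K : MainPiK fspC PT2 := mainT2K Vale.Agent.P284.H553.K8.spK

/-- **T3** for compact Kähler manifolds -/
theorem t3K : MainPiK fspC PN :=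
  mainNK Vale.Agent.P284.H553.K8.spK exK Vale.Agent.P284.H501.K.t5K
    fun _ hq => Vale.Agent.P284.H402.T.limAtT hq

end Vale.Agent.P284.H608.K
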