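import Vale.Agent.P284.H608.K.Fin
import Vale.Agent.P284.H608.K.PiK

/-!
# Amenable quotients of the fundamental groups of special compact Kähler manifolds (text)
-/

open scoped Manifold ContDiff
open Vale.Agent.P272.K Vale.Agent.P284.H248 Vale.Agent.P284.H894 Vale.Agent.P284.H894.G
  Vale.Agent.P284.H894.F Vale.Agent.P284.H478 Vale.Agent.P284.H837

namespace Vale.Agent.P284.H608.K.Txt

theorem result {n : ℕ} {X : Type} [TopologicalSpace X] [T2Space X] [CompactSpace X]
    [ConnectedSpace X] [ChartedSpace (Cm n) X] [IsManifold 𝓘(ℂ, Cm n) ω X]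
    (w : Chart n X → Cm n → Matrix (Fin n) (Fin n) ℂ) (hw : IsKahler w) (hS : FSp n X) (x : X) :
    (∀ (Q : Type) [Group Q] (f : FundamentalGroup X x →* Q), Function.Surjective f → Folner Q →
      VirtAbelianRank Q (2 * n)) ∧
    (VirtuallyAbelian (FundamentalGroup X x) ↔ Folner (FundamentalGroup X x)) ∧
    ((SubexpGrowth (FundamentalGroup X x) ∨ AECurveConnected n x ∨ AECurveSpanned n x) →
      VirtAbelianRank (FundamentalGroup X x) (2 * n)) :=
  pi_ofK t1K hw hS x

end Vale.Agent.P284.H608.K.Txt
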